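import Crest.Agent.N250.Tr.Base
import Crest.Agent.N222.F.Meas
import Crest.Agent.N222.F.Res0
import Crest.Agent.R241.AF2

/-!
# Row 250, first variation (helper35): time preserving graph charts of a track, area formula
-/

set_option autoImplicit false
open MeasureTheory Set Filter Topology Function
open scoped ContDiff InnerProductSpace
open Crest.GeometryTopology.MCF
open ContinuousLinearMap (adjoint inl)

noncomputable section

namespace Crest.Agent.N250.FV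

open Tr

/-- the parameter plane -/
abbrev E2 : Type := EuclideanSpace ℝ (Fin 2)

/-- basis of the plane -/
abbrev e2 (i : Fin 2) : E2 := EuclideanSpace.single i 1

/-- `X (·, t)` parametrises the part of the slice `t` in `W` as a graph over the plane of `L` -/
structure Ch (F : Mv) (X : E2 × ℝ → E) (U : Set (E2 × ℝ)) (W : Set ST) (L : E →L[ℝ] E2) :
    Prop where
  oU : IsOpen U
  oW : IsOpen W
  sm : ContDiffOn ℝ ∞ X U
  mem : ∀ q ∈ U, (X q, q.2) ∈ F.M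
  memW : ∀ q ∈ U, (X q, q.2) ∈ W
  left : ∀ q ∈ U, L (X q) = q.1
  inU : ∀ p ∈ F.M, p ∈ W → (L p.1, p.2) ∈ U
  right : ∀ p ∈ F.M, p ∈ W → X (L p.1, p.2) = p.1

theorem exists_diffeo {A B : Type} [NormedAddCommGroup A] [NormedSpace ℝ A] [CompleteSpace A]
    [NormedAddCommGroup B] [NormedSpace ℝ B] [CompleteSpace B] {g : A → B} {U : Set A}
    (hU : IsOpen U) (hg : ContDiffOn ℝ ∞ g U) {z : A} (hz : z ∈ U) (e : A ≃L[ℝ] B)
    (he : fderiv ℝ g z = e) :
    ∃ G : OpenPartialHomeomorph A B, z ∈ G.source ∧ G.source ⊆ U ∧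
      (∀ w, G w = g w) ∧ ContDiffOn ℝ ∞ G.symm G.target := by
  have hn : (∞ : WithTop ℕ∞) ≠ 0 := by simp
  have hc : ContinuousOn (fderiv ℝ g) U := hg.continuousOn_fderiv_of_isOpen hU (by simp)
  have hV : IsOpen (U ∩ fderiv ℝ g ⁻¹' range ((↑) : (A ≃L[ℝ] B) → A →L[ℝ] B)) :=
    hc.isOpen_inter_preimage hU ContinuousLinearEquiv.isOpen
  have hd : ∀ w ∈ U, ∀ e : A ≃L[ℝ] B, (e : A →L[ℝ] B) = fderiv ℝ g w →
      HasFDerivAt g (e : A →L[ℝ] B) w := fun w hw e h =>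
    h ▸ ((hg.contDiffAt (hU.mem_nhds hw)).differentiableAt hn).hasFDerivAt
  have hz' := hg.contDiffAt (hU.mem_nhds hz)
  refine ⟨(hz'.toOpenPartialHomeomorph g (hd z hz e he.symm) hn).restrOpen _ hV,
    ⟨hz'.mem_toOpenPartialHomeomorph_source (hd z hz e he.symm) hn, hz, e, he.symm⟩,
    fun w hw => hw.2.1, fun w => rfl, fun w hw => ?_⟩
  have h1 := OpenPartialHomeomorph.map_target _ hw
  obtain ⟨e', he'⟩ := h1.2.2
  exact (OpenPartialHomeomorph.contDiffAt_symm _ hw (hd _ h1.2.1 e' he')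
    (hg.contDiffAt (hU.mem_nhds h1.2.1))).contDiffWithinAt

theorem finrank_perp {g : E} (hg : g ≠ 0) : Module.finrank ℝ (ℝ ∙ g)ᗮ = 2 := by
  have := Submodule.finrank_add_finrank_orthogonal (ℝ ∙ g)
  rw [finrank_span_singleton hg, finrank_euclideanSpace_fin] at this
  omega

theorem exists_plane {g : E} (hg : g ≠ 0) :
    ∃ Li : E2 →ₗᵢ[ℝ] E, ∀ v, ⟪g, v⟫_ℝ = 0 ↔ v ∈ range Li := by
  let b : OrthonormalBasis (Fin 2) ℝ (ℝ ∙ g)ᗮ :=
    (stdOrthonormalBasis ℝ _).reindex (finCongr (finrank_perp hg))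
  refine ⟨(ℝ ∙ g)ᗮ.subtypeₗᵢ.comp b.repr.symm.toLinearIsometry, fun v => ⟨fun h => ?_, ?_⟩⟩
  · exact ⟨b.repr ⟨v, Submodule.mem_orthogonal_singleton_iff_inner_right.2 h⟩, by simp⟩
  · rintro ⟨z, rfl⟩
    exact Submodule.mem_orthogonal_singleton_iff_inner_right.1 (b.repr.symm z).2

variable {F : Mv} {X : E2 × ℝ → E} {U : Set (E2 × ℝ)} {W : Set ST} {L : E →L[ℝ] E2}
  {q : E2 × ℝ} {p : ST}

/-- charts exist; `L` is the orthogonal projection onto the tangent plane at `p` -/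
theorem exists_ch' (hF : F.Reg) (hp : p ∈ F.M) : ∃ (X : E2 × ℝ → E) (U : Set (E2 × ℝ))
    (W : Set ST) (Li : E2 →ₗᵢ[ℝ] E), p ∈ W ∧ (∀ v, ⟪F.n p, v⟫_ℝ = 0 ↔ v ∈ range Li) ∧
      Ch F X U W (adjoint Li.toContinuousLinearMap) := by
  obtain ⟨W0, φ, hW, h⟩ := hF p hp
  have hn : F.n p ≠ 0 := fun h0 => by simpa [h0] using n_unit hF hp
  obtain ⟨Li, hLi⟩ := exists_plane hn
  set L : E →L[ℝ] E2 := adjoint Li.toContinuousLinearMap with hL
  let T : ST →L[ℝ] E2 × ℝ := L.prodMap (ContinuousLinearMap.id ℝ ℝ)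
  let Θ : ST → (E2 × ℝ) × ℝ := fun y => (T y, φ y)
  have hΘ : ContDiffOn ℝ ∞ Θ W0 := T.contDiff.contDiffOn.prodMk h.sm
  have hd : fderiv ℝ Θ p = T.prod (fderiv ℝ φ p) :=
    (T.hasFDerivAt.prodMk (loc_diff h hW).hasFDerivAt).fderiv
  have hi : Injective (T.prod (fderiv ℝ φ p)) := by
    refine (injective_iff_map_eq_zero _).2 fun w hw => ?_
    obtain ⟨v, s⟩ := w
    simp only [ContinuousLinearMap.prod_apply, Prod.mk_eq_zero, T,
      ContinuousLinearMap.coe_prodMap', Prod.map_apply, ContinuousLinearMap.id_apply] at hw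
    obtain ⟨⟨h1, rfl⟩, h3⟩ := hw
    rw [fd_sp (loc_diff h hW)] at h3
    obtain ⟨u, rfl⟩ := (hLi v).1 (by rw [h.n_eq p hW hp, inner_smul_left, h3, mul_zero])
    rw [hL, N222.adjoint_isometry_apply] at h1
    simp [h1]
  let e : ST ≃L[ℝ] (E2 × ℝ) × ℝ := (LinearMap.linearEquivOfInjective
    (T.prod (fderiv ℝ φ p) : ST →ₗ[ℝ] (E2 × ℝ) × ℝ) hi (by simp)).toContinuousLinearEquiv
  obtain ⟨G, h1, h2, h3, h4⟩ := exists_diffeo h.isOpen hΘ hW e (by rw [hd]; ext <;> rfl)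
  have k : ∀ q : E2 × ℝ, (q, (0 : ℝ)) ∈ G.target → G.symm (q, 0) ∈ G.source ∧
      L (G.symm (q, 0)).1 = q.1 ∧ (G.symm (q, 0)).2 = q.2 ∧ φ (G.symm (q, 0)) = 0 := by
    intro q hq
    have := G.right_inv hq
    rw [h3] at this
    exact ⟨G.map_target hq, congrArg (fun y => y.1.1) this, congrArg (fun y => y.1.2) this,
      congrArg (fun y => y.2) this⟩
  have k2 : ∀ y ∈ F.M, y ∈ G.source → G y = ((L y.1, y.2), 0) := fun y hy hy' => by
    rw [h3]
    exact Prod.ext rfl ((h.mem y (h2 hy')).1 hy)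
  refine ⟨fun q => (G.symm (q, 0)).1, {q | (q, (0 : ℝ)) ∈ G.target}, G.source, Li, h1, hLi,
    G.open_target.preimage (Continuous.prodMk_left _), G.open_source,
    (h4.comp (contDiff_id.prodMk contDiff_const).contDiffOn fun q hq => hq).fst,
    fun q hq => ?_, fun q hq => ?_, fun q hq => (k q hq).2.1, fun y hy hy' => ?_,
    fun y hy hy' => ?_⟩
  · rw [← (k q hq).2.2.1]
    exact (h.mem _ (h2 (k q hq).1)).2 (k q hq).2.2.2
  · rw [← (k q hq).2.2.1]
    exact (k q hq).1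
  · change _ ∈ G.target
    rw [← k2 y hy hy']
    exact G.map_source hy'
  · rw [← k2 y hy hy', G.left_inv hy']

theorem exists_ch (hF : F.Reg) (hp : p ∈ F.M) : ∃ X U W L, p ∈ W ∧ Ch F X U W L := by
  obtain ⟨X, U, W, Li, h1, -, h2⟩ := exists_ch' hF hp
  exact ⟨X, U, W, _, h1, h2⟩

/-- the chart as a map into spacetime -/
def Ps (X : E2 × ℝ → E) (q : E2 × ℝ) : ST := (X q, q.2)

/-- spatial differential -/
def Jz (X : E2 × ℝ → E) (q : E2 × ℝ) : E2 →L[ℝ] E := (fderiv ℝ X q).comp (inl ℝ E2 ℝ)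

/-- area density -/
def rho (X : E2 × ℝ → E) (q : E2 × ℝ) : ℝ := N222.jac (Jz X q)

/-- coordinates of the tangential part of a vector -/
def La (X : E2 × ℝ → E) (q : E2 × ℝ) : E →L[ℝ] E2 := adjoint (N222.Lam (Jz X q))

theorem Jz_apply (v : E2) : Jz X q v = fderiv ℝ X q (v, 0) := rfl

namespace Ch

theorem at' (h : Ch F X U W L) (hq : q ∈ U) : ContDiffAt ℝ ∞ X q :=
  h.sm.contDiffAt (h.oU.mem_nhds hq)

theorem hasX (h : Ch F X U W L) (hq : q ∈ U) : HasFDerivAt X (fderiv ℝ X q) q :=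
  ((h.at' hq).differentiableAt (by simp)).hasFDerivAt

theorem hasPs (h : Ch F X U W L) (hq : q ∈ U) :
    HasFDerivAt (Ps X) ((fderiv ℝ X q).prod (ContinuousLinearMap.snd ℝ E2 ℝ)) q :=
  (h.hasX hq).prodMk hasFDerivAt_snd

theorem smPs (h : Ch F X U W L) : ContDiffOn ℝ ∞ (Ps X) U := h.sm.prodMk contDiffOn_snd

theorem evM (h : Ch F X U W L) (hq : q ∈ U) : ∀ᶠ y in 𝓝 q, Ps X y ∈ F.M :=
  (h.oU.eventually_mem hq).mono h.mem

theorem L_fd (h : Ch F X U W L) (hq : q ∈ U) (w : E2 × ℝ) : L (fderiv ℝ X q w) = w.1 := by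
  have h1 : HasFDerivAt (fun y => L (X y)) (L.comp (fderiv ℝ X q)) q :=
    L.hasFDerivAt.comp q (h.hasX hq)
  have h2 : HasFDerivAt (fun y => L (X y)) (ContinuousLinearMap.fst ℝ E2 ℝ) q :=
    hasFDerivAt_fst.congr_of_eventuallyEq ((h.oU.eventually_mem hq).mono h.left)
  exact congrArg (fun T : E2 × ℝ →L[ℝ] E2 => T w) (h1.unique h2)

theorem inj (h : Ch F X U W L) (hq : q ∈ U) : Injective (Jz X q) := fun v w hvw => by
  have := congrArg L hvw
  rwa [Jz_apply, Jz_apply, h.L_fd hq, h.L_fd hq] at this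

section
variable {G : Type} [NormedAddCommGroup G] [NormedSpace ℝ G] {f : ST → G}

/-- chain rule -/
theorem hasF (h : Ch F X U W L) (hq : q ∈ U) (hf : DifferentiableWithinAt ℝ f F.M (Ps X q)) :
    HasFDerivAt (fun y => f (Ps X y))
      ((F.td f (Ps X q)).comp ((fderiv ℝ X q).prod (ContinuousLinearMap.snd ℝ E2 ℝ))) q :=
  hf.hasFDerivWithinAt.comp_hasFDerivAt q (h.hasPs hq) (h.evM hq)

theorem fd_comp (h : Ch F X U W L) (hq : q ∈ U) (hf : DifferentiableWithinAt ℝ f F.M (Ps X q))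
    (w : E2 × ℝ) :
    fderiv ℝ (fun y => f (Ps X y)) q w = F.td f (Ps X q) (fderiv ℝ X q w, w.2) := by
  rw [(h.hasF hq hf).fderiv]; rfl

theorem cd_comp (h : Ch F X U W L) {n : ℕ∞} (hf : ContDiffOn ℝ n f F.M) :
    ContDiffOn ℝ n (fun y => f (Ps X y)) U :=
  hf.comp (h.smPs.of_le (by exact_mod_cast le_top)) h.mem

end

/-- the velocity of the chart has normal component `V` -/
theorem tan (h : Ch F X U W L) (hF : F.Reg) (hq : q ∈ U) (w : E2 × ℝ) :
    ⟪F.n (Ps X q), fderiv ℝ X q w⟫_ℝ = w.2 * F.V (Ps X q) := by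
  obtain ⟨W0, φ, hW, k⟩ := hF _ (h.mem q hq)
  have h1 := (loc_diff k hW).hasFDerivAt.comp q (h.hasPs hq)
  have h2 : HasFDerivAt (φ ∘ Ps X) (0 : E2 × ℝ →L[ℝ] ℝ) q := by
    refine (hasFDerivAt_const (0 : ℝ) q).congr_of_eventuallyEq ?_
    filter_upwards [h.evM hq, (h.hasPs hq).continuousAt.eventually_mem (k.isOpen.mem_nhds hW)]
      with y a b using (k.mem _ b).1 a
  have h3 : fderiv ℝ φ (Ps X q) (fderiv ℝ X q w, w.2) = 0 :=
    congrArg (fun T : E2 × ℝ →L[ℝ] ℝ => T w) (h1.unique h2)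
  have hW' : Ps X q ∈ W0 := hW
  rw [fd_st (loc_diff k hW')] at h3
  rw [k.n_eq _ hW' (h.mem q hq), k.V_eq _ hW' (h.mem q hq), inner_smul_left, conj_trivial,
    eq_neg_of_add_eq_zero_left h3]
  ring

theorem n_Jz (h : Ch F X U W L) (hF : F.Reg) (hq : q ∈ U) (v : E2) :
    ⟪F.n (Ps X q), Jz X q v⟫_ℝ = 0 := by
  rw [Jz_apply, h.tan hF hq, zero_mul]

theorem La_n (h : Ch F X U W L) (hF : F.Reg) (hq : q ∈ U) : La X q (F.n (Ps X q)) = 0 :=
  N222.adj_Lam_eq_zero fun v => by rw [real_inner_comm, h.n_Jz hF hq]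

theorem La_Jz (h : Ch F X U W L) (hq : q ∈ U) (v : E2) : La X q (Jz X q v) = v :=
  N222.adj_Lam_apply (h.inj hq) v

theorem Jz_La (h : Ch F X U W L) (hF : F.Reg) (hq : q ∈ U) (w : E) :
    Jz X q (La X q w) = F.PL (Ps X q) w := by
  have hM : Ps X q ∈ F.M := h.mem q hq
  have hn : F.n (Ps X q) ≠ 0 := fun h0 => by simpa [h0] using n_unit hF hM
  have h1 : LinearMap.range (Jz X q : E2 →ₗ[ℝ] E) = (ℝ ∙ F.n (Ps X q))ᗮ := by
    refine Submodule.eq_of_le_of_finrank_eq ?_ ?_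
    · rintro _ ⟨v, rfl⟩
      exact Submodule.mem_orthogonal_singleton_iff_inner_right.2 (h.n_Jz hF hq v)
    · rw [finrank_perp hn, LinearMap.finrank_range_of_inj (h.inj hq)]; simp
  obtain ⟨u, hu⟩ : F.PL (Ps X q) w ∈ LinearMap.range (Jz X q : E2 →ₗ[ℝ] E) :=
    h1 ▸ Submodule.mem_orthogonal_singleton_iff_inner_right.2 (n_PL hF hM w)
  have hu' : Jz X q u = F.PL (Ps X q) w := hu
  have : La X q w = u := by
    have e : w = Jz X q u + ⟪F.n (Ps X q), w⟫_ℝ • F.n (Ps X q) := by rw [hu', Mv.PL]; simp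
    rw [e, map_add, map_smul, h.La_Jz hq, h.La_n hF hq]; simp
  rw [this, hu']

theorem smA (h : Ch F X U W L) : ContDiffOn ℝ ∞ (fderiv ℝ X) U :=
  h.sm.fderiv_of_isOpen h.oU (by simp)

theorem smJ (h : Ch F X U W L) : ContDiffOn ℝ ∞ (Jz X) U := h.smA.clm_comp contDiffOn_const

theorem smRho (h : Ch F X U W L) : ContDiffOn ℝ ∞ (rho X) U := fun q hq =>
  (N222.contDiffAt_jac (h.inj hq)).comp_contDiffWithinAt q (h.smJ q hq)

theorem smLa (h : Ch F X U W L) : ContDiffOn ℝ ∞ (La X) U := fun q hq =>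
  ((N222.contDiff_adjoint (ι := Fin 3) (κ := Fin 2)).contDiffAt.comp _
    (N222.contDiffAt_Lam (h.inj hq))).comp_contDiffWithinAt q (h.smJ q hq)

theorem rho_pos (h : Ch F X U W L) (hq : q ∈ U) : 0 < rho X q := N222.jac_pos (h.inj hq)

/-- tangential derivatives in the chart -/
theorem D_eq (h : Ch F X U W L) (hF : F.Reg) (hq : q ∈ U) {f : ST → ℝ}
    (hf : DifferentiableWithinAt ℝ f F.M (Ps X q)) (a : Fin 3) :
    F.D a f (Ps X q) = fderiv ℝ (fun y => f (Ps X y)) q (La X q (ee a), 0) := by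
  rw [h.fd_comp hq hf, D_def, ← Jz_apply, h.Jz_La hF hq]

theorem H_eq (h : Ch F X U W L) (hF : F.Reg) (hq : q ∈ U) : F.H (Ps X q) =
    ∑ i, La X q (fderiv ℝ (fun y => F.n (Ps X y)) q (e2 i, 0)) i := by
  have hM : Ps X q ∈ F.M := h.mem q hq
  have hn : DifferentiableAt ℝ (fun y => F.n (Ps X y)) q :=
    (h.hasF hq ((sm_n hF _ hM).differentiableWithinAt (by simp))).differentiableAt
  have := N222.Ib.tr_comm ((fderiv ℝ (fun y => F.n (Ps X y)) q).comp (inl ℝ E2 ℝ)) (La X q)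
  refine Eq.trans ?_ this
  simp only [Mv.H, Finset.sum_apply, Mv.A]
  refine Finset.sum_congr rfl fun a _ => ?_
  rw [h.D_eq hF hq ((sm_nu hF a _ hM).differentiableWithinAt (by simp))]
  have e := ((EuclideanSpace.proj a : E →L[ℝ] ℝ).hasFDerivAt.comp q hn.hasFDerivAt).fderiv
  exact congrArg (fun T : E2 × ℝ →L[ℝ] ℝ => T (La X q (ee a), 0)) e

/-- the pointwise first variation identity in the chart -/
theorem key (h : Ch F X U W L) (hF : F.Reg) (hq : q ∈ U) {ζ : E2 × ℝ → E2} {w : E2 × ℝ → ℝ}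
    {s : ℝ} {c : E} (hζ : DifferentiableAt ℝ ζ q) (hw : DifferentiableAt ℝ w q)
    (he : ∀ᶠ y in 𝓝 q, fderiv ℝ X y (ζ y, s) = c + w y • F.n (Ps X y)) :
    fderiv ℝ (rho X) q (ζ q, s) + rho X q * ∑ i, fderiv ℝ ζ q (e2 i, 0) i =
      rho X q * (w q * F.H (Ps X q)) := by
  have hM : Ps X q ∈ F.M := h.mem q hq
  have hn : DifferentiableAt ℝ (fun y => F.n (Ps X y)) q :=
    (h.hasF hq ((sm_n hF _ hM).differentiableWithinAt (by simp))).differentiableAt
  have hA : HasFDerivAt (fderiv ℝ X) (fderiv ℝ (fderiv ℝ X) q) q :=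
    ((h.smA.contDiffAt (h.oU.mem_nhds hq)).differentiableAt (by simp)).hasFDerivAt
  have hs : IsSymmSndFDerivAt ℝ X q := (h.at' hq).isSymmSndFDerivAt
    (by rw [minSmoothness_of_isRCLikeNormedField]; exact WithTop.coe_le_coe.2 le_top)
  have hJ : HasFDerivAt (Jz X) (((ContinuousLinearMap.compL ℝ E2 (E2 × ℝ) E).flip
      (inl ℝ E2 ℝ)).comp (fderiv ℝ (fderiv ℝ X) q)) q :=
    ((ContinuousLinearMap.compL ℝ E2 (E2 × ℝ) E).flip (inl ℝ E2 ℝ)).hasFDerivAt.comp q hA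
  have h1 : fderiv ℝ (rho X) q (ζ q, s) =
      rho X q * ∑ i, La X q (fderiv ℝ (fderiv ℝ X) q (e2 i, 0) (ζ q, s)) i := by
    have e := (((N222.contDiffAt_jac (h.inj hq)).differentiableAt (by simp)).hasFDerivAt.comp q
      hJ).fderiv
    have e' : fderiv ℝ (rho X) q (ζ q, s) = fderiv ℝ N222.jac (Jz X q)
        ((fderiv ℝ (fderiv ℝ X) q (ζ q, s)).comp (inl ℝ E2 ℝ)) :=
      congrArg (fun T : E2 × ℝ →L[ℝ] ℝ => T (ζ q, s)) e
    rw [e', N222.Ib.fderiv_jac (h.inj hq)]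
    congr 1
    refine Finset.sum_congr rfl fun i _ => ?_
    rw [← hs.eq (ζ q, s)]
    rfl
  have h2 := (hA.clm_apply (hζ.hasFDerivAt.prodMk (hasFDerivAt_const s q))).unique
    (((hw.hasFDerivAt.smul hn.hasFDerivAt).const_add c).congr_of_eventuallyEq he)
  have h3 : ∀ i, La X q (fderiv ℝ (fderiv ℝ X) q (e2 i, 0) (ζ q, s)) + fderiv ℝ ζ q (e2 i, 0) =
      w q • La X q (fderiv ℝ (fun y => F.n (Ps X y)) q (e2 i, 0)) := fun i => by
    have e : fderiv ℝ X q (fderiv ℝ ζ q (e2 i, 0), 0) +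
        fderiv ℝ (fderiv ℝ X) q (e2 i, 0) (ζ q, s) =
        w q • fderiv ℝ (fun y => F.n (Ps X y)) q (e2 i, 0) +
          fderiv ℝ w q (e2 i, 0) • F.n (Ps X q) :=
      congrArg (fun T : E2 × ℝ →L[ℝ] E => T (e2 i, 0)) h2
    have e' := congrArg (La X q) e
    rw [map_add, map_add, map_smul, map_smul, h.La_n hF hq, ← Jz_apply, h.La_Jz hq] at e'
    rw [add_comm, e']; simp
  rw [h1, ← mul_add, ← Finset.sum_add_distrib, h.H_eq hF hq, Finset.mul_sum _ _ (w q)]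
  congr 1
  refine Finset.sum_congr rfl fun i _ => ?_
  exact congrArg (fun v : E2 => v i) (h3 i)

/-! ### the area formula -/

theorem image_eq (h : Ch F X U W L) (t : ℝ) :
    (fun z => X (z, t)) '' {z | (z, t) ∈ U} = F.sl t ∩ {x | (x, t) ∈ W} := by
  ext x
  constructor
  · rintro ⟨z, hz, rfl⟩
    exact ⟨h.mem _ hz, h.memW _ hz⟩
  · rintro ⟨h1, h2⟩
    exact ⟨L x, h.inU (x, t) h1 h2, h.right (x, t) h1 h2⟩

theorem oUt (h : Ch F X U W L) (t : ℝ) : IsOpen {z | (z, t) ∈ U} :=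
  h.oU.preimage (Continuous.prodMk_left t)

theorem oWt (h : Ch F X U W L) (t : ℝ) : IsOpen {x | (x, t) ∈ W} :=
  h.oW.preimage (Continuous.prodMk_left t)

theorem hasXt (h : Ch F X U W L) (t : ℝ) : ∀ z ∈ {z | (z, t) ∈ U},
    HasFDerivWithinAt (fun z => X (z, t)) (Jz X (z, t)) {z | (z, t) ∈ U} z := fun z hz =>
  (HasFDerivAt.comp z (f := fun y : E2 => (y, t)) (h.hasX hz)
    (hasFDerivAt_prodMk_left z t)).hasFDerivWithinAt

theorem injXt (h : Ch F X U W L) (t : ℝ) : InjOn (fun z => X (z, t)) {z | (z, t) ∈ U} :=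
  fun z hz y hy e => by
    have := congrArg L e
    rwa [h.left _ hz, h.left _ hy] at this

theorem mu_res (h : Ch F X U W L) (t : ℝ) : (F.mu t).restrict {x | (x, t) ∈ W} =
    (μHE[Module.finrank ℝ E2] : Measure E).restrict ((fun z => X (z, t)) '' {z | (z, t) ∈ U}) := by
  rw [h.image_eq, Mv.mu, Measure.restrict_restrict (h.oWt t).measurableSet, inter_comm,
    finrank_euclideanSpace_fin]

theorem jac_eq (X : E2 × ℝ → E) (q : E2 × ℝ) : R241.AF.jac (Jz X q) = rho X q := by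
  rw [rho, N222.jac_eq_normDet]; rfl

/-- area formula, lower integrals -/
theorem lint (h : Ch F X U W L) (t : ℝ) (g : E → ENNReal) :
    ∫⁻ x in {x | (x, t) ∈ W}, g x ∂F.mu t =
      ∫⁻ z in {z | (z, t) ∈ U}, ENNReal.ofReal (rho X (z, t)) * g (X (z, t)) := by
  rw [h.mu_res, R241.AF.lintegral_image_eq (h.oUt t).measurableSet (h.hasXt t) (h.injXt t)]
  simp only [jac_eq]

theorem aem (h : Ch F X U W L) (t : ℝ) : AEMeasurable (fun z => (rho X (z, t)).toNNReal)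
    (volume.restrict {z | (z, t) ∈ U}) :=
  (continuous_real_toNNReal.comp_continuousOn (h.smRho.continuousOn.comp
    (Continuous.prodMk_left t).continuousOn fun _ hz => hz)).aemeasurable (h.oUt t).measurableSet

/-- area formula, Bochner integrals -/
theorem int (h : Ch F X U W L) (t : ℝ) (g : E → ℝ) :
    ∫ x in {x | (x, t) ∈ W}, g x ∂F.mu t = ∫ z in {z | (z, t) ∈ U}, rho X (z, t) * g (X (z, t)) := by
  have hs := (h.oUt t).measurableSet
  rw [h.mu_res, ← R241.AF.restrict_map_withDensity_jac hs (h.hasXt t) (h.injXt t),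
    (R241.AF.measurableEmbedding_of_deriv hs (h.hasXt t) (h.injXt t)).integral_map]
  simp only [Set.domRestrict_apply, ENNReal.ofReal, jac_eq]
  rw [← (MeasurableEmbedding.subtype_coe hs).integral_map (g := fun z => g (X (z, t))),
    map_comap_subtype_coe hs, setIntegral_withDensity_eq_setIntegral_smul₀ (h.aem t) _ hs]
  refine setIntegral_congr_fun hs fun z hz => ?_
  simp only [NNReal.smul_def, Real.coe_toNNReal _ (h.rho_pos hz).le, smul_eq_mul]

theorem intg (h : Ch F X U W L) (t : ℝ) (g : E → ℝ) :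
    IntegrableOn g {x | (x, t) ∈ W} (F.mu t) ↔
      IntegrableOn (fun z => rho X (z, t) * g (X (z, t))) {z | (z, t) ∈ U} := by
  have hs := (h.oUt t).measurableSet
  rw [IntegrableOn, h.mu_res, ← R241.AF.restrict_map_withDensity_jac hs (h.hasXt t) (h.injXt t),
    (R241.AF.measurableEmbedding_of_deriv hs (h.hasXt t) (h.injXt t)).integrable_map_iff]
  simp only [Set.domRestrict_eq, ← Function.comp_assoc, ENNReal.ofReal, jac_eq]
  rw [← (MeasurableEmbedding.subtype_coe hs).integrable_map_iff, map_comap_subtype_coe hs,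
    restrict_withDensity hs, integrable_withDensity_iff_integrable_coe_smul₀ (h.aem t)]
  refine integrableOn_congr_fun (fun z hz => ?_) hs
  simp only [Real.coe_toNNReal _ (h.rho_pos hz).le, smul_eq_mul, Function.comp_apply]

end Ch

end Crest.Agent.N250.FV

end
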