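import Crest.Agent.N250.FV.Hu2
import Crest.Agent.N250.FV.Main
import Crest.Agent.N250.T.Gau

-- ▼ part N250/FV/Hu3
section

/-!
# Row 250, monotonicity formula (helper23): `HuiskenS`
-/

set_option autoImplicit false
open MeasureTheory Set Filter Topology
open scoped ContDiff InnerProductSpace
open Crest.GeometryTopology.MCF

noncomputable section

namespace Crest.Agent.N250.Hu

open Tr

variable {F : Mv}

/-- monotone convergence for `stI` along the cut-offs -/
theorem stI_cut (hM : MuFinS) (hC : MuContS) (hR : F.Reg) {J : Set ℝ} (hJ : IsOpen J) {t₁ t₂ : ℝ}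
    (h12 : t₁ ≤ t₂) (hsub : Icc t₁ t₂ ⊆ J) (y : E) (hc : ∀ ε, 0 < ε → F.CS (cut y ε) J)
    {g : ST → ℝ} (hg : ContinuousOn g (F.M ∩ univ ×ˢ J)) (h0 : ∀ p ∈ F.M, p.2 ∈ J → 0 ≤ g p) :
    Tendsto (fun k : ℕ => ENNReal.ofReal
      (∫ t in t₁..t₂, ∫ x, cut y (1 / ((k : ℝ) + 1)) (x, t) * g (x, t) ∂F.mu t)) atTop
      (𝓝 (F.stI g t₁ t₂)) := by
  have he : ∀ k : ℕ, 0 < 1 / ((k : ℝ) + 1) := fun k => Nat.one_div_pos_of_nat
  have c1 : ∀ k : ℕ, ContinuousOn (fun p => cut y (1 / ((k : ℝ) + 1)) p * g p) (F.M ∩ univ ×ˢ J) :=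
    fun k => (cut_sm y _).continuous.continuousOn.mul hg
  have s1 : ∀ k : ℕ, F.CS (fun p => cut y (1 / ((k : ℝ) + 1)) p * g p) J := fun k =>
    CS_imp (hc _ (he k)) fun p h => by simp only [h, zero_mul]
  have c2 := fun k => muCont hC hR hJ (c1 k) (s1 k)
  have n1 : ∀ (k : ℕ) t, t ∈ J → ∀ᵐ x ∂F.mu t, 0 ≤ cut y (1 / ((k : ℝ) + 1)) (x, t) * g (x, t) :=
    fun k t ht => (ae_sl hR t).mono fun x hx => mul_nonneg (eta_nonneg _) (h0 _ hx ht)
  have e1 : ∀ (k : ℕ) t, t ∈ J →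
      ENNReal.ofReal (∫ x, cut y (1 / ((k : ℝ) + 1)) (x, t) * g (x, t) ∂F.mu t) =
      ∫⁻ x, ENNReal.ofReal (cut y (1 / ((k : ℝ) + 1)) (x, t) * g (x, t)) ∂F.mu t := fun k t ht =>
    ofReal_integral_eq_lintegral_ofReal
      (int_CS hM hR ht (cont_sl (c1 k) fun _ => ⟨trivial, ht⟩) (s1 k)) (n1 k t ht)
  have hI : ∀ᵐ t ∂(volume.restrict (Ioo t₁ t₂)), t ∈ J :=
    (ae_restrict_mem measurableSet_Ioo).mono fun t ht => hsub (Ioo_subset_Icc_self ht)
  have e2 : ∀ k : ℕ, ENNReal.ofReal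
      (∫ t in t₁..t₂, ∫ x, cut y (1 / ((k : ℝ) + 1)) (x, t) * g (x, t) ∂F.mu t) =
      ∫⁻ t in Ioo t₁ t₂,
        ENNReal.ofReal (∫ x, cut y (1 / ((k : ℝ) + 1)) (x, t) * g (x, t) ∂F.mu t) := fun k => by
    rw [intervalIntegral.integral_of_le h12, integral_Ioc_eq_integral_Ioo]
    exact ofReal_integral_eq_lintegral_ofReal
      (((c2 k).mono hsub).integrableOn_Icc.mono_set Ioo_subset_Icc_self)
      (hI.mono fun t ht => integral_nonneg_of_ae (n1 k t ht))
  simp only [e2]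
  have m1 : ∀ t ∈ J, ∀ᵐ x ∂F.mu t, Monotone fun k : ℕ =>
      ENNReal.ofReal (cut y (1 / ((k : ℝ) + 1)) (x, t) * g (x, t)) := fun t ht =>
    (ae_sl hR t).mono fun x hx _ _ h => ENNReal.ofReal_le_ofReal
      (mul_le_mul_of_nonneg_right (cut_mono y (x, t) h) (h0 _ hx ht))
  refine lintegral_tendsto_of_tendsto_of_monotone (fun k => ?_) (hI.mono fun t ht => ?_)
    (hI.mono fun t ht => ?_)
  · exact (((c2 k).mono (Ioo_subset_Icc_self.trans hsub)).aemeasurable
      measurableSet_Ioo).ennreal_ofReal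
  · intro k l h
    simp only [e1 _ t ht]
    exact lintegral_mono_ae ((m1 t ht).mono fun x hx => hx h)
  · simp only [e1 _ t ht]
    refine lintegral_tendsto_of_tendsto_of_monotone (fun k => ?_) (m1 t ht)
      (Eventually.of_forall fun x => tendsto_const_nhds.congr' ?_)
    · exact (aesm_sl hR (cont_sl (c1 k) fun _ => ⟨trivial, ht⟩)).aemeasurable.ennreal_ofReal
    · filter_upwards [cut_ev y (x, t)] with k hk
      rw [hk, one_mul]

theorem tendsto_cut (hR : F.Reg) (y : E) {t : ℝ} {u : E → ℝ} (hu : Integrable u (F.mu t)) :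
    Tendsto (fun k : ℕ => ∫ x, cut y (1 / ((k : ℝ) + 1)) (x, t) * u x ∂F.mu t) atTop
      (𝓝 (∫ x, u x ∂F.mu t)) := by
  refine tendsto_integral_of_dominated_convergence (fun x => ‖u x‖) (fun k => ?_) hu.norm
    (fun k => Eventually.of_forall fun x => ?_)
    (Eventually.of_forall fun x => tendsto_const_nhds.congr' ?_)
  · exact (aesm_sl hR ((cut_sm y _).continuous.comp
      (Continuous.prodMk_left t)).continuousOn).mul hu.1
  · rw [norm_mul]
    refine mul_le_of_le_one_left (norm_nonneg _) ?_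
    rw [cut, Real.norm_of_nonneg (eta_nonneg _)]
    exact eta_le _
  · filter_upwards [cut_ev y (x, t)] with k hk
    rw [hk, one_mul]

end Crest.Agent.N250.Hu

namespace Crest.Agent.N250

open Hu Tr

theorem huiskenS_of (hM : MuFinS) (hC : MuContS) (hW : WMonoS) (hG : GauS) : HuiskenS := by
  intro F I Λ hI hF X t₁ t₂ h12 h2 hsub
  have hR := hF.mcf.1
  obtain ⟨L, hL, hJ1, hJ2⟩ := exists_compact_between (isCompact_Icc (a := t₁) (b := t₂))
    (hI.inter isOpen_Iio) (subset_inter hsub fun t ht => ht.2.trans_lt h2)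
  have hJX : interior L ⊆ Iio X.2 := fun t ht => (hJ2 (interior_subset ht)).2
  have hc : ∀ ε, 0 < ε → F.CS (cut X.1 ε) (interior L) := fun ε hε =>
    CS_mono (CS_cut hF.proper hL (fun t ht => (hJ2 ht).1) X.1 hε) interior_subset
  have hJ : IsOpen (interior L) := isOpen_interior
  generalize interior L = J at hJ1 hJX hc hJ
  obtain ⟨C, hC0, hbox⟩ := box_cut
  obtain ⟨G, hG0, hG⟩ := hG
  have hg := fun t (ht : t ∈ J) => (hG (F.mu t) (max Λ 0) (le_max_right _ _)).1
    (ar_max hF.ar t) X.1 (X.2 - t) (sub_pos.2 (hJX ht))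
  have hs : F.M ∩ univ ×ˢ J ⊆ F.M ∩ {p | p.2 < X.2} := fun p hp => ⟨hp.1, hJX hp.2.2⟩
  have cP : ContinuousOn (Phi X) (F.M ∩ univ ×ˢ J) := (contOn_Phi X).mono fun p hp => (hs hp).2
  have cD : ContinuousOn (fun p => F.dev X p ^ 2 * Phi X p) (F.M ∩ univ ×ˢ J) :=
    (((contOn_dev hR X).mono hs).pow 2).mul cP
  have P0 : ∀ p : ST, p.2 ∈ J → 0 ≤ Phi X p := fun p hp =>
    (gau_pos _ (sub_pos.2 (hJX hp)) _).le
  have h1 := stI_cut hM hC hR hJ h12 hJ1 X.1 hc cD fun p _ hp =>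
    mul_nonneg (sq_nonneg _) (P0 p hp)
  -- the identity for one cut-off
  have key : ∀ ε, 0 < ε →
      |(∫ t in t₁..t₂, ∫ x, cut X.1 ε (x, t) * (F.dev X (x, t) ^ 2 * Phi X (x, t)) ∂F.mu t) -
        ((∫ x, cut X.1 ε (x, t₁) * Phi X (x, t₁) ∂F.mu t₁) -
          ∫ x, cut X.1 ε (x, t₂) * Phi X (x, t₂) ∂F.mu t₂)| ≤
      C * ε * (G * max Λ 0) * |t₂ - t₁| := by
    intro ε hε
    have sm : F.Sm (cut X.1 ε) := (cut_sm _ _).contDiffOn
    have c1 : ContinuousOn (fun p => cut X.1 ε p * (F.dev X p ^ 2 * Phi X p)) (F.M ∩ univ ×ˢ J) :=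
      (cut_sm _ _).continuous.continuousOn.mul cD
    have s1 : F.CS (fun p => cut X.1 ε p * (F.dev X p ^ 2 * Phi X p)) J :=
      CS_imp (hc ε hε) fun p h => by simp only [h, zero_mul]
    have c2 : ContinuousOn (fun p => F.box (cut X.1 ε) p * Phi X p) (F.M ∩ univ ×ˢ J) :=
      ((sm_box hF.mcf sm).continuousOn.mono inter_subset_left).mul cP
    have s2 : F.CS (fun p => F.box (cut X.1 ε) p * Phi X p) J :=
      CS_of hJ (hc ε hε) fun p hp h => by
        have a1 : F.Dt (cut X.1 ε) p = 0 := by rw [Mv.Dt, td_zero hp h]; rfl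
        have a2 : ∀ a, F.D a (F.D a (cut X.1 ε)) p = 0 := fun a => by
          rw [D_def, td_zero hp (f := F.D a (cut X.1 ε)) (ev_td h)]; rfl
        simp [box_eq, a1, a2]
    have i1 := fun t (ht : t ∈ J) => int_CS hM hR ht (cont_sl c1 fun _ => ⟨trivial, ht⟩) s1
    have i2 := fun t (ht : t ∈ J) => int_CS hM hR ht (cont_sl c2 fun _ => ⟨trivial, ht⟩) s2
    have hu : uIcc t₁ t₂ ⊆ J := by rwa [uIcc_of_le h12]
    have j1 := ((muCont hC hR hJ c1 s1).mono hu).intervalIntegrable (μ := volume)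
    have j2 := ((muCont hC hR hJ c2 s2).mono hu).intervalIntegrable (μ := volume)
    have ftc := intervalIntegral.integral_eq_sub_of_hasDerivAt
      (f := fun s => ∫ x, cut X.1 ε (x, s) * Phi X (x, s) ∂F.mu s) (fun t ht => by
        have := hW F hF.mcf X (cut X.1 ε) J hJ hJX sm (hc ε hε) t (hu ht)
        refine this.congr_deriv ?_
        rw [← integral_sub (i2 t (hu ht)) (i1 t (hu ht))]
        exact integral_congr_ae (Eventually.of_forall fun x => by ring)) (j2.sub j1)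
    rw [intervalIntegral.integral_sub j2 j1] at ftc
    have bd := intervalIntegral.norm_integral_le_of_norm_le_const (a := t₁) (b := t₂)
      (C := C * ε * (G * max Λ 0))
      (f := fun t => ∫ x, F.box (cut X.1 ε) (x, t) * Phi X (x, t) ∂F.mu t) fun t ht => by
        have ht' := hu (uIoc_subset_uIcc ht)
        refine (norm_integral_le_of_norm_le ((hg t ht').1.const_mul (C * ε))
          ((ae_sl hR t).mono fun x hx => ?_)).trans ?_
        · rw [norm_mul, Real.norm_of_nonneg (P0 (x, t) ht')]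
          exact mul_le_mul_of_nonneg_right (hbox F X.1 ε _ hF.mcf hε.le hx) (P0 (x, t) ht')
        · rw [integral_const_mul]
          exact mul_le_mul_of_nonneg_left (hg t ht').2.1 (by positivity)
    rw [Real.norm_eq_abs] at bd
    refine le_of_eq_of_le (congrArg _ ?_) bd
    linarith
  have l1 := tendsto_cut hR X.1 (hg t₁ (hJ1 ⟨le_rfl, h12⟩)).1
  have l2 := tendsto_cut hR X.1 (hg t₂ (hJ1 ⟨h12, le_rfl⟩)).1
  have l3 : Tendsto (fun k : ℕ => C * (1 / ((k : ℝ) + 1)) * (G * max Λ 0) * |t₂ - t₁|) atTop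
      (𝓝 0) := by
    simpa using ((tendsto_one_div_add_atTop_nhds_zero_nat.const_mul C).mul_const
      (G * max Λ 0)).mul_const |t₂ - t₁|
  have l4 := (squeeze_zero_norm (fun k : ℕ => key _ Nat.one_div_pos_of_nat) l3).add (l1.sub l2)
  simp only [Phi, sub_add_cancel, zero_add] at l4
  refine ⟨sub_nonneg.1 (ge_of_tendsto' l4 fun k => ?_),
    tendsto_nhds_unique h1 ((ENNReal.continuous_ofReal.tendsto _).comp l4)⟩
  refine intervalIntegral.integral_nonneg h12 fun t ht => integral_nonneg fun x => ?_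
  exact mul_nonneg (eta_nonneg _) (mul_nonneg (sq_nonneg _) (P0 (x, t) (hJ1 ht)))

end Crest.Agent.N250

end
end

-- ▼ part N250/FV/Hu4

/-!
# Row 250, monotonicity formula (helper23): closed forms
-/

namespace Crest.Agent.N250

theorem wMonoS_holds : WMonoS := wMonoS_of muFinS_holds divS_holds transS_holds

theorem huiskenS_holds : HuiskenS :=
  huiskenS_of muFinS_holds muContS_holds wMonoS_holds gauS_holds

end Crest.Agent.N250
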