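import Crest.Agent.N250.FV.Ch

/-!
# Row 250, first variation (helper35): `d/dt ∫ f dμ_t = ∫ (Dt f + f V H)`, `∫ D_a f = ∫ f H ν_a`
-/

set_option autoImplicit false
open MeasureTheory Set Filter Topology Function
open scoped ContDiff InnerProductSpace Manifold
open Crest.GeometryTopology.MCF

noncomputable section

namespace Crest.Agent.N250.FV

open Tr

variable {F : Mv} {X : E2 × ℝ → E} {U : Set (E2 × ℝ)} {W : Set ST} {L : E →L[ℝ] E2}
  {p : ST} {f g : ST → ℝ} {K : Set ST}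

/-- `f` vanishes on the track outside the compact subset `K` of the track -/
structure CS (F : Mv) (f : ST → ℝ) (K : Set ST) : Prop where
  cpt : IsCompact K
  sub : K ⊆ F.M
  zero : ∀ p ∈ F.M, p ∉ K → f p = 0

theorem CS.of_zero (h : CS F f K) (hg : ∀ p ∈ F.M, f p = 0 → g p = 0) : CS F g K :=
  ⟨h.cpt, h.sub, fun p hp hK => hg p hp (h.zero p hp hK)⟩

theorem CS.ev (h : CS F f K) (hK : p ∉ K) : f =ᶠ[𝓝[F.M] p] fun _ => 0 := by
  filter_upwards [self_mem_nhdsWithin,
    mem_nhdsWithin_of_mem_nhds (h.cpt.isClosed.isOpen_compl.mem_nhds hK)] with q a b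
  exact h.zero q a b

theorem CS.td (h : CS F f K) (hp : p ∈ F.M) (hK : p ∉ K) : F.td f p = 0 := by
  rw [td_congr hp (h.ev hK)]
  simp [Mv.td]



theorem exists_bump {A : Type} [NormedAddCommGroup A] [NormedSpace ℝ A] [FiniteDimensional ℝ A]
    {K O : Set A} (hK : IsCompact K) (hO : IsOpen O) (h : K ⊆ O) :
    ∃ χ : A → ℝ, ContDiff ℝ ∞ χ ∧ ∃ K', IsCompact K' ∧ K' ⊆ O ∧ (∀ᶠ x in 𝓝ˢ K, χ x = 1) ∧
      (∀ x, x ∉ K' → χ x = 0) ∧ ∀ x, χ x ∈ Icc (0 : ℝ) 1 := by
  obtain ⟨K', h1, h2, h3⟩ := exists_compact_between hK hO h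
  obtain ⟨χ, a, b, c⟩ := exists_contMDiffMap_one_nhds_of_subset_interior (n := (⊤ : ℕ∞)) 𝓘(ℝ, A)
    hK.isClosed h2
  exact ⟨χ, χ.contMDiff.contDiff, K', h1, h3, a, b, c⟩

/-- localisation: an additive property true in charts is true -/
theorem part (hF : F.Reg) {n : ℕ∞} {P : (ST → ℝ) → Prop}
    (hadd : ∀ f g K, ContDiffOn ℝ n f F.M → ContDiffOn ℝ n g F.M → CS F f K → CS F g K →
      P f → P g → P (f + g))
    (hloc : ∀ X U W L, Ch F X U W L → ∀ f K, ContDiffOn ℝ n f F.M → CS F f K → K ⊆ W → P f)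
    (hf : ContDiffOn ℝ n f F.M) (hK : CS F f K) : P f := by
  have : ∃ O, IsOpen O ∧ K ⊆ O ∧
      ∀ f K', ContDiffOn ℝ n f F.M → CS F f K' → K' ⊆ O → P f := by
    refine hK.cpt.induction_on (p := fun s => ∃ O, IsOpen O ∧ s ⊆ O ∧
      ∀ f K', ContDiffOn ℝ n f F.M → CS F f K' → K' ⊆ O → P f) ?_ ?_ ?_ ?_
    · exact ⟨∅, isOpen_empty, Subset.rfl, hloc 0 ∅ ∅ 0 ⟨isOpen_empty, isOpen_empty,
        contDiffOn_empty, fun _ h => h.elim, fun _ h => h.elim, fun _ h => h.elim,
        fun _ _ h => h.elim, fun _ _ h => h.elim⟩⟩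
    · rintro s t hst ⟨O, h1, h2, h3⟩
      exact ⟨O, h1, hst.trans h2, h3⟩
    · rintro s t ⟨O, h1, h2, h3⟩ ⟨O', h1', h2', h3'⟩
      refine ⟨O ∪ O', h1.union h1', union_subset_union h2 h2', fun f K' hf hK' hO => ?_⟩
      obtain ⟨K1, K2, c1, c2, s1, s2, e⟩ := hK'.cpt.binary_compact_cover h1 h1' hO
      obtain ⟨χ, hχ, K3, c3, s3, o3, z3, -⟩ := exists_bump c1 h1 s1
      have hχ' : ContDiffOn ℝ n χ F.M := (hχ.of_le (by exact_mod_cast le_top)).contDiffOn
      have e' : f = (fun p => χ p * f p) + fun p => (1 - χ p) * f p := by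
        funext p; simp only [Pi.add_apply]; ring
      have a1 := hχ'.mul hf
      have a2 := (contDiffOn_const (c := (1 : ℝ)).sub hχ').mul hf
      rw [e']
      refine hadd _ _ K' a1 a2 (hK'.of_zero fun p _ h => by simp [h])
        (hK'.of_zero fun p _ h => by simp [h])
        (h3 _ (K' ∩ K3) a1 ⟨hK'.cpt.inter c3, inter_subset_left.trans hK'.sub, fun p hp h => ?_⟩
          (inter_subset_right.trans s3))
        (h3' _ K2 a2 ⟨c2, (e ▸ subset_union_right : K2 ⊆ K').trans hK'.sub, fun p hp h => ?_⟩ s2)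
      · by_cases h' : p ∈ K'
        · rw [z3 p fun h'' => h ⟨h', h''⟩, zero_mul]
        · rw [hK'.zero p hp h', mul_zero]
      · by_cases h' : p ∈ K1
        · rw [o3.self_of_nhdsSet p h', sub_self, zero_mul]
        · rw [hK'.zero p hp (by rw [e]; exact fun h'' => h''.elim h' h), mul_zero]
    · intro p hp
      obtain ⟨X, U, W, L, h1, h2⟩ := exists_ch hF (hK.sub hp)
      exact ⟨W, mem_nhdsWithin_of_mem_nhds (h2.oW.mem_nhds h1), W, h2.oW, Subset.rfl,
        hloc X U W L h2⟩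
  obtain ⟨O, -, h2, h3⟩ := this
  exact h3 f K hf hK h2

theorem locClosed (hF : F.Reg) : IsLocallyClosed F.M := by
  refine ((isLocallyClosed_tfae F.M).out 2 0).1 fun p hp => ?_
  obtain ⟨W, φ, h1, h⟩ := hF p hp
  refine ⟨W, h.isOpen.mem_nhds h1, ?_⟩
  have : (Subtype.val ⁻¹' F.M : Set W) = (W.domRestrict φ) ⁻¹' {0} := by
    ext q; exact h.mem q q.2
  rw [this]
  exact isClosed_singleton.preimage h.sm.continuousOn.domRestrict

theorem meas_M (hF : F.Reg) : MeasurableSet F.M := by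
  obtain ⟨U, Z, h1, h2, h3⟩ := locClosed hF
  rw [h3]
  exact h1.measurableSet.inter h2.measurableSet

theorem meas_sl (hF : F.Reg) (t : ℝ) : MeasurableSet (F.sl t) :=
  (meas_M hF).preimage (f := fun x : E => (x, t)) (Continuous.prodMk_left t).measurable

theorem ae_sl (hF : F.Reg) (t : ℝ) : ∀ᵐ x ∂F.mu t, (x, t) ∈ F.M := ae_restrict_mem (meas_sl hF t)

theorem int_congr (hF : F.Reg) (t : ℝ) (h : ∀ x, (x, t) ∈ F.M → f (x, t) = g (x, t)) :
    ∫ x, f (x, t) ∂F.mu t = ∫ x, g (x, t) ∂F.mu t :=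
  integral_congr_ae ((ae_sl hF t).mono h)

/-- functions continuous on the track are measurable on the slices -/
theorem aesm {B : Type} [TopologicalSpace B] [TopologicalSpace.PseudoMetrizableSpace B]
    {f : ST → B} (hF : F.Reg) (hf : ContinuousOn f F.M) (t : ℝ) :
    AEStronglyMeasurable (fun x => f (x, t)) (F.mu t) :=
  (hf.comp (Continuous.prodMk_left t).continuousOn fun _ h => h).aestronglyMeasurable
    (meas_sl hF t)

/-! ### smoothness -/

theorem cd_td (hF : F.Reg) {G : Type} [NormedAddCommGroup G] [NormedSpace ℝ G] {f : ST → G}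
    {m : ℕ} (hf : ContDiffOn ℝ (m + 1) f F.M) {w : ST → ST} (hw : ContDiffOn ℝ m w F.M)
    (ht : ∀ p ∈ F.M, ⟪F.n p, (w p).1⟫_ℝ = (w p).2 * F.V p) :
    ContDiffOn ℝ m (fun p => F.td f p (w p)) F.M := by
  intro p hM
  obtain ⟨u, hu, -, f', h2, h3⟩ :=
    (contDiffWithinAt_succ_iff_hasFDerivWithinAt (by simp)).1 (hf p hM)
  rw [insert_eq_of_mem hM] at hu
  have h5 := (h3.mono_of_mem_nhdsWithin hu).clm_apply (hw p hM)
  have h6 : ∀ᶠ q in 𝓝[F.M] p, F.td f q (w q) = f' q (w q) := by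
    filter_upwards [self_mem_nhdsWithin, eventually_eventually_nhdsWithin.2 hu, hu] with q a1 a2 a3
    exact td_eq ((h2 q a3).mono_of_mem_nhdsWithin a2) (tan_mem hF a1 (ht q a1))
  exact h5.congr_of_eventuallyEq h6 (h6.self_of_nhdsWithin hM)

theorem sm_V (hF : F.Reg) : F.Sm F.V := by
  intro p hM
  obtain ⟨X, U, W, L, hp, h⟩ := exists_ch hF hM
  let T : ST →L[ℝ] E2 × ℝ := L.prodMap (ContinuousLinearMap.id ℝ ℝ)
  have h1 : ContDiffAt ℝ ∞ (fun y => fderiv ℝ X (T y) (0, 1)) p :=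
    (((h.smA.contDiffAt (h.oU.mem_nhds (h.inU p hM hp))).comp p T.contDiff.contDiffAt).clm_apply
      contDiffAt_const)
  have h2 : ∀ᶠ y in 𝓝[F.M] p, F.V y = ⟪F.n y, fderiv ℝ X (T y) (0, 1)⟫_ℝ := by
    filter_upwards [self_mem_nhdsWithin, mem_nhdsWithin_of_mem_nhds (h.oW.mem_nhds hp)] with y a b
    have e : Ps X (T y) = y := Prod.ext (h.right y a b) rfl
    have := h.tan hF (h.inU y a b) (0, 1)
    change ⟪F.n (Ps X (T y)), fderiv ℝ X (T y) _⟫_ℝ = _ * F.V (Ps X (T y)) at this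
    rw [e, one_mul] at this
    exact this.symm
  exact ((sm_n hF p hM).inner ℝ h1.contDiffWithinAt).congr_of_eventuallyEq h2
    (h2.self_of_nhdsWithin hM)

theorem sm_H (hF : F.Reg) : F.Sm F.H := by
  have : F.H = fun p => ∑ a, F.D a (F.nu a) p := by funext p; simp [Mv.H, Mv.A]
  rw [this]
  exact ContDiffOn.sum fun a _ => sm_D hF (sm_nu hF a) a

theorem Sm.le {G : Type} [NormedAddCommGroup G] [NormedSpace ℝ G] {f : ST → G} (hf : F.Sm f)
    (m : ℕ∞) : ContDiffOn ℝ m f F.M := ContDiffOn.of_le hf (by exact_mod_cast le_top)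

theorem cd_D (hF : F.Reg) {m : ℕ} (hf : ContDiffOn ℝ (m + 1) f F.M) (a : Fin 3) :
    ContDiffOn ℝ m (F.D a f) F.M := by
  have := Sm.le (sm_n hF) m
  exact cd_td hF hf (w := fun q => (F.PL q (ee a), 0))
    ((contDiffOn_const.sub ((this.inner ℝ contDiffOn_const).smul this)).prodMk contDiffOn_const)
    fun p hp => by simp [n_PL hF hp]


theorem td_add (hF : F.Reg) (hp : p ∈ F.M) (hf : DifferentiableWithinAt ℝ f F.M p)
    (hg : DifferentiableWithinAt ℝ g F.M p) {v : E} {s : ℝ} (hv : ⟪F.n p, v⟫_ℝ = s * F.V p) :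
    F.td (f + g) p (v, s) = F.td f p (v, s) + F.td g p (v, s) :=
  td_eq (hf.hasFDerivWithinAt.add hg.hasFDerivWithinAt) (tan_mem hF hp hv)

/-! ### one chart -/

theorem cd_ind {A B : Type} [NormedAddCommGroup A] [NormedSpace ℝ A] [NormedAddCommGroup B]
    [NormedSpace ℝ B] {U K : Set A} (hU : IsOpen U) (hK : IsCompact K) (hKU : K ⊆ U) {n : ℕ∞}
    {u : A → B} (hu : ContDiffOn ℝ n u U) (h0 : ∀ z ∈ U, z ∉ K → u z = 0) :
    ContDiff ℝ n (U.indicator u) ∧ HasCompactSupport (U.indicator u) := by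
  have hs : tsupport (U.indicator u) ⊆ K := closure_minimal (fun z hz => by
    by_contra h
    by_cases hz' : z ∈ U
    · exact hz (by rw [indicator_of_mem hz', h0 z hz' h])
    · exact hz (indicator_of_notMem hz' _)) hK.isClosed
  refine ⟨contDiff_iff_contDiffAt.2 fun z => ?_,
    hK.of_isClosed_subset (isClosed_tsupport _) hs⟩
  by_cases hz : z ∈ U
  · exact (hu.contDiffAt (hU.mem_nhds hz)).congr_of_eventuallyEq
      ((hU.eventually_mem hz).mono fun y hy => indicator_of_mem hy _)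
  · exact contDiffAt_const.congr_of_eventuallyEq
      (notMem_tsupport_iff_eventuallyEq.1 fun h => hz (hKU (hs h)))

theorem isCE (t : ℝ) : IsClosedEmbedding fun z : E2 => (z, t) :=
  (Isometry.of_dist_eq fun a b => by simp [Prod.dist_eq]).isClosedEmbedding

theorem intg_sl {G : E2 × ℝ → ℝ} (hG : Continuous G) (hc : HasCompactSupport G) (t : ℝ) :
    Integrable fun z => G (z, t) :=
  (hG.comp (Continuous.prodMk_left t)).integrable_of_hasCompactSupport
    (hc.comp_isClosedEmbedding (isCE t))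

theorem cont_par {G : E2 × ℝ → ℝ} (hG : Continuous G) (hc : HasCompactSupport G) :
    Continuous fun t => ∫ z, G (z, t) := by
  have := continuous_parametric_integral_of_continuous (μ := (volume : Measure E2))
    (f := fun t z => G (z, t)) (hG.comp continuous_swap) (hc.isCompact.image continuous_fst)
  refine this.congr fun t => setIntegral_eq_integral_of_forall_compl_eq_zero fun z hz => ?_
  by_contra h
  exact hz ⟨(z, t), subset_tsupport _ h, rfl⟩

theorem deriv_par {G : E2 × ℝ → ℝ} (hG : ContDiff ℝ 1 G) (hc : HasCompactSupport G) (t : ℝ) :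
    HasDerivAt (fun t => ∫ z, G (z, t)) (∫ z, fderiv ℝ G (z, t) (0, 1)) t := by
  have h1 : Continuous fun q => fderiv ℝ G q (0, 1) :=
    (hG.continuous_fderiv one_ne_zero).clm_apply continuous_const
  have h2 : HasCompactSupport fun q => fderiv ℝ G q (0, 1) := hc.fderiv_apply ℝ _
  obtain ⟨C, hC⟩ := h1.bounded_above_of_compact_support h2
  have hk := h2.isCompact.image continuous_fst
  refine (hasDerivAt_integral_of_dominated_loc_of_deriv_le (F := fun t z => G (z, t))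
    (F' := fun t z => fderiv ℝ G (z, t) (0, 1)) univ_mem
    (bound := (Prod.fst '' tsupport fun q => fderiv ℝ G q (0, 1)).indicator fun _ => C)
    (Eventually.of_forall fun s => (intg_sl hG.continuous hc s).1) (intg_sl hG.continuous hc t)
    (intg_sl h1 h2 t).1 (ae_of_all _ fun z s _ => ?_)
    ((integrable_indicator_iff hk.measurableSet).2 (integrableOn_const hk.measure_lt_top.ne))
    (ae_of_all _ fun z s _ => ?_)).2
  · by_cases hz : z ∈ Prod.fst '' tsupport fun q => fderiv ℝ G q (0, 1)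
    · rw [indicator_of_mem hz]; exact hC _
    · rw [indicator_of_notMem hz, image_eq_zero_of_notMem_tsupport
        (f := fun q => fderiv ℝ G q (0, 1)) fun h => hz ⟨_, h, rfl⟩, norm_zero]
  · exact (hG.differentiable one_ne_zero (z, s)).hasFDerivAt.comp_hasDerivAt s
      ((hasDerivAt_const s z).prodMk (hasDerivAt_id s))

namespace Ch

theorem memP (h : Ch F X U W L) {q : E2 × ℝ} (hq : q ∈ U) : Ps X q ∈ F.M := h.mem q hq

theorem int_eq (h : Ch F X U W L) (hF : F.Reg) (hg : ∀ p ∈ F.M, p ∉ W → g p = 0) (t : ℝ) :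
    ∫ x, g (x, t) ∂F.mu t = ∫ z, U.indicator (fun q => rho X q * g (Ps X q)) (z, t) := by
  rw [← setIntegral_eq_integral_of_ae_compl_eq_zero (s := {x | (x, t) ∈ W})
    ((ae_sl hF t).mono fun x hx hx' => hg _ hx hx'), h.int t fun x => g (x, t),
    ← integral_indicator (h.oUt t).measurableSet]
  rfl

theorem cpt (h : Ch F X U W L) (hK : CS F f K) (hW : K ⊆ W) :
    IsCompact ((fun p : ST => (L p.1, p.2)) '' K) ∧ (fun p : ST => (L p.1, p.2)) '' K ⊆ U ∧
      ∀ q ∈ U, q ∉ (fun p : ST => (L p.1, p.2)) '' K → Ps X q ∉ K :=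
  ⟨hK.cpt.image (by fun_prop), by rintro _ ⟨p, hp, rfl⟩; exact h.inU p (hK.sub hp) (hW hp),
    fun q hq h1 h2 => h1 ⟨_, h2, Prod.ext (h.left q hq) rfl⟩⟩

theorem ind (h : Ch F X U W L) {n : ℕ∞} (hf : ContDiffOn ℝ n f F.M) (hK : CS F f K) (hW : K ⊆ W) :
    ContDiff ℝ n (U.indicator fun q => rho X q * f (Ps X q)) ∧
      HasCompactSupport (U.indicator fun q => rho X q * f (Ps X q)) := by
  obtain ⟨h1, h2, h3⟩ := h.cpt hK hW
  exact cd_ind h.oU h1 h2 ((h.smRho.of_le (by exact_mod_cast le_top)).mul (h.cd_comp hf))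
    fun q hq hq' => by rw [hK.zero _ (h.memP hq) (h3 q hq hq'), mul_zero]

theorem intg_loc (h : Ch F X U W L) (hF : F.Reg) (hf : ContinuousOn f F.M) (hK : CS F f K)
    (hW : K ⊆ W) (t : ℝ) : Integrable (fun x => f (x, t)) (F.mu t) := by
  obtain ⟨h1, h2⟩ := h.ind (n := 0) (contDiffOn_zero.2 hf) hK hW
  refine IntegrableOn.integrable_of_ae_notMem_eq_zero (s := {x | (x, t) ∈ W}) ?_
    ((ae_sl hF t).mono fun x hx hx' => hK.zero _ hx fun h' => hx' (hW h'))
  rw [h.intg t fun x => f (x, t), ← integrable_indicator_iff (h.oUt t).measurableSet]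
  exact intg_sl h1.continuous h2 t

end Ch

/-- continuous functions with compact support in the track are integrable on the slices -/
theorem intg (hF : F.Reg) (hf : ContinuousOn f F.M) (hK : CS F f K) (t : ℝ) :
    Integrable (fun x => f (x, t)) (F.mu t) :=
  part hF (n := 0) (P := fun f => Integrable (fun x => f (x, t)) (F.mu t))
    (fun _ _ _ _ _ _ _ a b => a.add b)
    (fun _ _ _ _ h _ _ hf hK hW => h.intg_loc hF hf.continuousOn hK hW t)
    (contDiffOn_zero.2 hf) hK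

/-- continuity in time -/
theorem cont_int (hF : F.Reg) (hf : ContinuousOn f F.M) (hK : CS F f K) :
    Continuous fun t => ∫ x, f (x, t) ∂F.mu t := by
  refine part hF (n := 0) (P := fun f => Continuous fun t => ∫ x, f (x, t) ∂F.mu t)
    (fun f g K a b c d e e' => (e.add e').congr fun t => ?_)
    (fun X U W L h f K hf hK hW => ?_) (contDiffOn_zero.2 hf) hK
  · exact (integral_add (intg hF a.continuousOn c t) (intg hF b.continuousOn d t)).symm
  · obtain ⟨h1, h2⟩ := h.ind hf hK hW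
    exact (cont_par h1.continuous h2).congr fun t =>
      (h.int_eq hF (fun p hp hp' => hK.zero p hp fun h' => hp' (hW h')) t).symm

/-- the integrand of the general variation formula -/
def vI (F : Mv) (c : E) (w : ST → ℝ) (s : ℝ) (f : ST → ℝ) (p : ST) : ℝ :=
  F.td f p (c + w p • F.n p, s) + f p * w p * F.H p

section var
variable {c : E} {w : ST → ℝ} {s : ℝ}

theorem vI_tan (hF : F.Reg) (ht : ∀ p ∈ F.M, ⟪F.n p, c⟫_ℝ + w p = s * F.V p) (hp : p ∈ F.M) :
    ⟪F.n p, c + w p • F.n p⟫_ℝ = s * F.V p := by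
  rw [inner_add_right, inner_smul_right, n_n hF hp, mul_one, ht p hp]

theorem vI_cont (hF : F.Reg) (hw : F.Sm w) (ht : ∀ p ∈ F.M, ⟪F.n p, c⟫_ℝ + w p = s * F.V p)
    (hf : ContDiffOn ℝ 1 f F.M) : ContinuousOn (vI F c w s f) F.M :=
  (cd_td hF (m := 0) (by simpa using hf) (w := fun p => (c + w p • F.n p, s))
    ((contDiffOn_const.add ((Sm.le hw 0).smul (Sm.le (sm_n hF) 0))).prodMk contDiffOn_const)
    fun _ hp => vI_tan hF ht hp).continuousOn.add
    ((hf.continuousOn.mul hw.continuousOn).mul (sm_H hF).continuousOn)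

theorem vI_cs (hK : CS F f K) : CS F (vI F c w s f) K :=
  ⟨hK.cpt, hK.sub, fun p hp h => by simp [vI, hK.td hp h, hK.zero p hp h]⟩

theorem Ch.var (h : Ch F X U W L) (hF : F.Reg) (hw : F.Sm w)
    (ht : ∀ p ∈ F.M, ⟪F.n p, c⟫_ℝ + w p = s * F.V p) (hf : ContDiffOn ℝ 1 f F.M) (hK : CS F f K)
    (hW : K ⊆ W) (t : ℝ) : ∃ I, HasDerivAt (fun t => ∫ x, f (x, t) ∂F.mu t) I t ∧
      ∫ x, vI F c w s f (x, t) ∂F.mu t = s * I := by
  obtain ⟨h1, h2⟩ := h.ind (n := 1) hf hK hW
  obtain ⟨k1, k2, k3⟩ := h.cpt hK hW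
  set G0 : E2 × ℝ → ℝ := fun q => rho X q * f (Ps X q) with hG0
  have hz : ∀ p ∈ F.M, p ∉ W → f p = 0 := fun p hp hp' => hK.zero p hp fun h' => hp' (hW h')
  refine ⟨_, by simpa only [h.int_eq hF hz] using deriv_par h1 h2 t, ?_⟩
  obtain ⟨j1, j2⟩ := h.ind (n := 0) (contDiffOn_zero.2 (vI_cont hF hw ht hf)) (vI_cs hK) hW
  have i1 := intg_sl j1.continuous j2 t
  have i2 := intg_sl (G := fun q => fderiv ℝ (U.indicator G0) q (0, 1))
    ((h1.continuous_fderiv one_ne_zero).clm_apply continuous_const) (h2.fderiv_apply ℝ _) t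
  rw [h.int_eq hF fun p hp hp' => (vI_cs hK).zero p hp fun h' => hp' (hW h'), ← sub_eq_zero,
    ← integral_const_mul, ← integral_sub i1 (i2.const_mul s)]
  set ζ : E2 × ℝ → E2 := fun q =>
    La X q (c + w (Ps X q) • F.n (Ps X q) - s • fderiv ℝ X q (0, 1)) with hζ
  have hw' := h.cd_comp (n := ⊤) hw
  have sζ : ContDiffOn ℝ ∞ ζ U := h.smLa.clm_apply ((contDiffOn_const.add (hw'.smul
    (h.cd_comp (n := ⊤) (sm_n hF)))).sub ((h.smA.clm_apply contDiffOn_const).const_smul s))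
  have eζ : ∀ q ∈ U, fderiv ℝ X q (ζ q, s) = c + w (Ps X q) • F.n (Ps X q) := fun q hq => by
    have e : ((ζ q, s) : E2 × ℝ) = (ζ q, 0) + s • ((0 : E2), (1 : ℝ)) := by simp
    rw [e, map_add, map_smul, ← Jz_apply, hζ, h.Jz_La hF hq, Mv.PL, inner_sub_right,
      vI_tan hF ht (h.memP hq), inner_smul_right, h.tan hF hq]
    simp
  have sG : ContDiffOn ℝ 1 G0 U :=
    (h.smRho.of_le (by exact_mod_cast le_top)).mul (h.cd_comp (n := 1) hf)
  have sU : ContDiffOn ℝ 1 (fun q => G0 q • ζ q) U := sG.smul (sζ.of_le (by exact_mod_cast le_top))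
  have hd := N222.Ib.int_div (h.oUt t) ((isCE t).isCompact_preimage k1) (fun z hz => k2 hz)
    (u := fun z => G0 (z, t) • ζ (z, t))
    (sU.comp (contDiff_prodMk_left t).contDiffOn fun _ hz => hz)
    fun z hz hz' => by simp [hG0, hK.zero _ (h.memP hz) (k3 _ hz hz')]
  rw [← hd, ← integral_indicator (h.oUt t).measurableSet]
  refine integral_congr_ae (ae_of_all _ fun z => ?_)
  by_cases hq : (z, t) ∈ U
  · have hn := h.oU.mem_nhds hq
    have dG := (sG.contDiffAt hn).differentiableAt one_ne_zero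
    have dζ := (sζ.contDiffAt hn).differentiableAt (by simp)
    have dρ := (h.smRho.contDiffAt hn).differentiableAt (by simp)
    have df := (hf _ (h.memP hq)).differentiableWithinAt one_ne_zero
    have e1 : fderiv ℝ (U.indicator G0) (z, t) = fderiv ℝ G0 (z, t) :=
      Filter.EventuallyEq.fderiv_eq
        ((h.oU.eventually_mem hq).mono fun y hy => indicator_of_mem hy _)
    have e2' : ∀ i, fderiv ℝ (fun z => G0 (z, t) • ζ (z, t)) z (N222.ee i) i =
        G0 (z, t) * fderiv ℝ ζ (z, t) (e2 i, 0) i +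
          ζ (z, t) i * fderiv ℝ G0 (z, t) (e2 i, 0) := fun i => by
      have := (HasFDerivAt.comp z (f := fun y : E2 => (y, t)) (dG.hasFDerivAt.smul dζ.hasFDerivAt)
        (hasFDerivAt_prodMk_left z t)).fderiv
      rw [show (fun z => G0 (z, t) • ζ (z, t)) = (G0 • ζ) ∘ fun y : E2 => (y, t) from rfl, this]
      simp [mul_comm]
    have e3 : fderiv ℝ G0 (z, t) (ζ (z, t), s) = ∑ i, ζ (z, t) i * fderiv ℝ G0 (z, t) (e2 i, 0) +
        s * fderiv ℝ G0 (z, t) (0, 1) := by
      have e : ((ζ (z, t), s) : E2 × ℝ) =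
          ∑ i, ζ (z, t) i • ((e2 i, 0) : E2 × ℝ) + s • ((0 : E2), (1 : ℝ)) := by
        refine Prod.ext ?_ (by simp)
        simpa [Prod.fst_sum] using N222.eq_sum_ee (ζ (z, t))
      rw [e, map_add, map_sum]
      simp only [map_smul, smul_eq_mul]
    have e4 : fderiv ℝ G0 (z, t) (ζ (z, t), s) =
        rho X (z, t) * F.td f (Ps X (z, t)) (c + w (Ps X (z, t)) • F.n (Ps X (z, t)), s) +
          f (Ps X (z, t)) * fderiv ℝ (rho X) (z, t) (ζ (z, t), s) := by
      rw [hG0, (dρ.hasFDerivAt.fun_mul (h.hasF hq df)).fderiv, ← eζ _ hq]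
      rfl
    have e5 := h.key hF hq dζ ((hw'.contDiffAt hn).differentiableAt (by simp))
      ((h.oU.eventually_mem hq).mono eζ)
    rw [indicator_of_mem (s := {z | (z, t) ∈ U}) hq]
    have e6 : G0 (z, t) = rho X (z, t) * f (Ps X (z, t)) := rfl
    simp only [indicator_of_mem hq, e1, e2', Finset.sum_add_distrib, ← Finset.mul_sum, vI, e6]
    linear_combination e3 - e4 - f (Ps X (z, t)) * e5
  · rw [indicator_of_notMem (s := {z | (z, t) ∈ U}) hq]
    have : (z, t) ∉ tsupport (U.indicator G0) := fun h' => hq (k2 (closure_minimal (fun y hy => by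
      by_contra hy'
      by_cases hy'' : y ∈ U
      · exact hy (by rw [indicator_of_mem hy'', hG0]; simp [hK.zero _ (h.memP hy'') (k3 y hy'' hy')])
      · exact hy (indicator_of_notMem hy'' _)) k1.isClosed h'))
    simp [indicator_of_notMem hq, fderiv_of_notMem_tsupport ℝ this]

/-- the general variation formula -/
theorem var (hF : F.Reg) (hw : F.Sm w) (ht : ∀ p ∈ F.M, ⟪F.n p, c⟫_ℝ + w p = s * F.V p)
    (hf : ContDiffOn ℝ 1 f F.M) (hK : CS F f K) (t : ℝ) :
    ∃ I, HasDerivAt (fun t => ∫ x, f (x, t) ∂F.mu t) I t ∧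
      ∫ x, vI F c w s f (x, t) ∂F.mu t = s * I := by
  refine part hF (n := 1) (P := fun f => ∃ I, HasDerivAt (fun t => ∫ x, f (x, t) ∂F.mu t) I t ∧
      ∫ x, vI F c w s f (x, t) ∂F.mu t = s * I) ?_
    (fun X U W L h f K hf hK hW => h.var hF hw ht hf hK hW t) hf hK
  rintro f g K a b k k' ⟨I, e1, e2⟩ ⟨I', e1', e2'⟩
  refine ⟨I + I', (e1.add e1').congr_of_eventuallyEq (Eventually.of_forall fun t =>
    integral_add (intg hF a.continuousOn k t) (intg hF b.continuousOn k' t)), ?_⟩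
  rw [mul_add, ← e2, ← e2', ← integral_add (intg hF (vI_cont hF hw ht a) (vI_cs k) t)
    (intg hF (vI_cont hF hw ht b) (vI_cs k') t)]
  refine integral_congr_ae ((ae_sl hF t).mono fun x hx => ?_)
  simp only [vI, td_add hF hx ((a _ hx).differentiableWithinAt one_ne_zero)
    ((b _ hx).differentiableWithinAt one_ne_zero) (vI_tan hF ht hx), Pi.add_apply]
  ring

end var

/-- **first variation formula** -/
theorem fv (hF : F.Reg) (hf : ContDiffOn ℝ 1 f F.M) (hK : CS F f K) (t : ℝ) :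
    HasDerivAt (fun t => ∫ x, f (x, t) ∂F.mu t)
      (∫ x, (F.Dt f (x, t) + f (x, t) * F.V (x, t) * F.H (x, t)) ∂F.mu t) t := by
  obtain ⟨I, h1, h2⟩ := var hF (c := 0) (s := 1) (sm_V hF) (by simp) hf hK t
  simp only [vI, zero_add, one_mul] at h2
  exact h2 ▸ h1

/-- **integration by parts** on the slices -/
theorem ibp (hF : F.Reg) (hf : ContDiffOn ℝ 1 f F.M) (hK : CS F f K) (a : Fin 3) (t : ℝ) :
    ∫ x, F.D a f (x, t) ∂F.mu t = ∫ x, f (x, t) * F.H (x, t) * F.nu a (x, t) ∂F.mu t := by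
  have e : ∀ p, ⟪F.n p, ee a⟫_ℝ = F.nu a p := fun p => by simp [Mv.nu, ee, EuclideanSpace.inner_single_right]
  obtain ⟨I, -, h2⟩ := var hF (c := ee a) (s := 0) (w := fun p => -F.nu a p) (sm_nu hF a).neg
    (fun p _ => by simp [e]) hf hK t
  rw [← sub_eq_zero, ← integral_sub
    (intg hF (cd_D hF (m := 0) (by simpa using hf) a).continuousOn
      ⟨hK.cpt, hK.sub, fun p hp h => by simp [D_def, hK.td hp h]⟩ t)
    (intg hF (f := fun p => f p * F.H p * F.nu a p)
      ((hf.continuousOn.mul (sm_H hF).continuousOn).mul (sm_nu hF a).continuousOn)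
      (hK.of_zero fun p _ h => by simp [h]) t), ← zero_mul I, ← h2]
  refine integral_congr_ae (ae_of_all _ fun x => ?_)
  simp only [vI, D_def, Mv.PL, e, neg_smul, ← sub_eq_add_neg]
  ring

end Crest.Agent.N250.FV

end
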